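import Mathlib

/-!
# Row 211 / S0328, package [C-7a]: the cell estimate / choice of `δ`

Pure real analysis: uniform continuity of `R` and of `τ ↦ 1 / (2 √(1 + ‖w τ‖²))` on `[α, β]`
gives a mesh `δ` and a slack `ε₁` such that on every cell `[s₁, s₂] ⊆ [α, β]` of length `≤ δ`
with tag `c` the outer radius `R c + ε₁ + C (s₂ - s₁)` and the inner radius `max (R c - ε₁) 0`
bracket `R` on the cell and the two "area densities" are within `ε` of the integrand.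
-/

set_option autoImplicit false

namespace Crest.Agent.Helper56.Sweep

open Set

/-- The elementary inequality behind the cell estimate. -/
theorem density_diff_le (κ M θ ε ρ r ψc ψτ : ℝ) (hκ : 0 ≤ κ) (hM : 0 ≤ M)
    (hθ0 : 0 ≤ θ) (hθ1 : θ ≤ 1) (hε : κ * θ * (M + 1) ^ 2 ≤ ε)
    (hr0 : 0 ≤ r) (hrM : r ≤ M) (hρ0 : 0 ≤ ρ) (hρr : |ρ - r| ≤ θ)
    (hψc0 : 0 ≤ ψc) (hψc : ψc ≤ 1 / 2) (hψ : |ψc - ψτ| ≤ θ) :
    |κ * ρ ^ 2 * ψc - κ * (r ^ 2 * ψτ)| ≤ ε := by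
  have h1 : κ * ρ ^ 2 * ψc - κ * (r ^ 2 * ψτ)
      = κ * ((ρ - r) * (ρ + r) * ψc + r ^ 2 * (ψc - ψτ)) := by ring
  rw [h1, abs_mul, abs_of_nonneg hκ]
  have h2 : |(ρ - r) * (ρ + r) * ψc + r ^ 2 * (ψc - ψτ)| ≤ θ * (M + 1) ^ 2 := by
    have hρM : ρ ≤ M + θ := by
      have := (abs_le.mp hρr).2
      linarith
    have ha : |(ρ - r) * (ρ + r) * ψc| ≤ θ * (2 * M + 1) * (1 / 2) := by
      rw [abs_mul, abs_mul, abs_of_nonneg hψc0, abs_of_nonneg (by linarith : 0 ≤ ρ + r)]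
      have hsum : ρ + r ≤ 2 * M + 1 := by linarith
      have : |ρ - r| * (ρ + r) ≤ θ * (2 * M + 1) :=
        mul_le_mul hρr hsum (by linarith) hθ0
      exact mul_le_mul this hψc hψc0 (by positivity)
    have hb : |r ^ 2 * (ψc - ψτ)| ≤ M ^ 2 * θ := by
      rw [abs_mul, abs_of_nonneg (sq_nonneg r)]
      have : r ^ 2 ≤ M ^ 2 := by nlinarith
      exact mul_le_mul this hψ (abs_nonneg _) (sq_nonneg M)
    calc |(ρ - r) * (ρ + r) * ψc + r ^ 2 * (ψc - ψτ)|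
        ≤ |(ρ - r) * (ρ + r) * ψc| + |r ^ 2 * (ψc - ψτ)| := abs_add_le _ _
      _ ≤ θ * (2 * M + 1) * (1 / 2) + M ^ 2 * θ := add_le_add ha hb
      _ ≤ θ * (M + 1) ^ 2 := by nlinarith
  calc κ * |(ρ - r) * (ρ + r) * ψc + r ^ 2 * (ψc - ψτ)|
      ≤ κ * (θ * (M + 1) ^ 2) := mul_le_mul_of_nonneg_left h2 hκ
    _ = κ * θ * (M + 1) ^ 2 := by ring
    _ ≤ ε := hε

/-- **[C-7a] cell estimate / choice of `δ`.** -/
theorem exists_delta {F : Type*} [SeminormedAddCommGroup F]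
    (α β : ℝ) (hαβ : α < β) (R : ℝ → ℝ) (hR : ContinuousOn R (Icc α β))
    (hR0 : ∀ t ∈ Icc α β, 0 ≤ R t) (w : ℝ → F) (hw : ContinuousOn w (Icc α β))
    (κ C ε : ℝ) (hκ : 0 ≤ κ) (hC : 0 ≤ C) (hε : 0 < ε) :
    ∃ δ > 0, ∃ ε₁ > 0, ∀ s₁ s₂ c : ℝ, α ≤ s₁ → s₁ ≤ s₂ → s₂ ≤ β → s₂ - s₁ ≤ δ →
      c ∈ Icc s₁ s₂ → ∀ τ ∈ Icc s₁ s₂,
      R τ ≤ R c + ε₁ ∧ max (R c - ε₁) 0 ≤ R τ ∧
      |κ * (R c + ε₁ + C * (s₂ - s₁)) ^ 2 / (2 * Real.sqrt (1 + ‖w c‖ ^ 2))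
          - κ * (R τ ^ 2 / (2 * Real.sqrt (1 + ‖w τ‖ ^ 2)))| ≤ ε ∧
      |κ * (max (R c - ε₁) 0) ^ 2 / (2 * Real.sqrt (1 + ‖w c‖ ^ 2))
          - κ * (R τ ^ 2 / (2 * Real.sqrt (1 + ‖w τ‖ ^ 2)))| ≤ ε := by
  classical
  -- the density
  set ψ : ℝ → ℝ := fun x => (2 * Real.sqrt (1 + ‖w x‖ ^ 2))⁻¹ with hψdef
  have hden_pos : ∀ x, 0 < 2 * Real.sqrt (1 + ‖w x‖ ^ 2) := fun x => by
    have : 0 < Real.sqrt (1 + ‖w x‖ ^ 2) := Real.sqrt_pos.mpr (by positivity)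
    linarith
  have hψ0 : ∀ x, 0 ≤ ψ x := fun x => (inv_pos.mpr (hden_pos x)).le
  have hψhalf : ∀ x, ψ x ≤ 1 / 2 := fun x => by
    have h1 : (1 : ℝ) ≤ Real.sqrt (1 + ‖w x‖ ^ 2) := by
      rw [Real.one_le_sqrt]
      nlinarith [sq_nonneg ‖w x‖]
    have h2 : (2 : ℝ) ≤ 2 * Real.sqrt (1 + ‖w x‖ ^ 2) := by linarith
    calc ψ x = (2 * Real.sqrt (1 + ‖w x‖ ^ 2))⁻¹ := rfl
      _ ≤ (2 : ℝ)⁻¹ := inv_anti₀ (by norm_num) h2
      _ = 1 / 2 := by norm_num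
  have hψc : ContinuousOn ψ (Icc α β) := by
    have h1 : ContinuousOn (fun x => 2 * Real.sqrt (1 + ‖w x‖ ^ 2)) (Icc α β) :=
      continuousOn_const.mul
        (Real.continuous_sqrt.comp_continuousOn (continuousOn_const.add (hw.norm.pow 2)))
    exact h1.inv₀ (fun x _ => (hden_pos x).ne')
  -- bound for R
  obtain ⟨M, hM⟩ : ∃ M, ∀ x ∈ Icc α β, R x ≤ M := by
    obtain ⟨M, hM⟩ := (isCompact_Icc.image_of_continuousOn hR).bddAbove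
    exact ⟨M, fun x hx => hM ⟨x, hx, rfl⟩⟩
  have hM0 : 0 ≤ M := le_trans (hR0 α ⟨le_refl _, hαβ.le⟩) (hM α ⟨le_refl _, hαβ.le⟩)
  -- the tolerance θ
  set θ : ℝ := min 1 (ε / (κ * (M + 1) ^ 2 + 1)) with hθdef
  have hden : 0 < κ * (M + 1) ^ 2 + 1 := by positivity
  have hθpos : 0 < θ := lt_min one_pos (div_pos hε hden)
  have hθ1 : θ ≤ 1 := min_le_left _ _
  have hθε : κ * θ * (M + 1) ^ 2 ≤ ε := by
    have h1 : θ ≤ ε / (κ * (M + 1) ^ 2 + 1) := min_le_right _ _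
    have h2 : θ * (κ * (M + 1) ^ 2 + 1) ≤ ε := (le_div_iff₀ hden).mp h1
    nlinarith
  -- uniform continuity
  have hRu := isCompact_Icc.uniformContinuousOn_of_continuous hR
  have hψu := isCompact_Icc.uniformContinuousOn_of_continuous hψc
  rw [Metric.uniformContinuousOn_iff] at hRu hψu
  obtain ⟨δR, hδR, hRu⟩ := hRu (θ / 4) (by positivity)
  obtain ⟨δψ, hδψ, hψu⟩ := hψu θ hθpos
  refine ⟨min (min (δR / 2) (δψ / 2)) (θ / (2 * (C + 1))), by positivity, θ / 4, by positivity, ?_⟩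
  intro s₁ s₂ c h1 h12 h2 hδ hc τ hτ
  have hδ1 : s₂ - s₁ ≤ δR / 2 := hδ.trans ((min_le_left _ _).trans (min_le_left _ _))
  have hδ2 : s₂ - s₁ ≤ δψ / 2 := hδ.trans ((min_le_left _ _).trans (min_le_right _ _))
  have hδ3 : s₂ - s₁ ≤ θ / (2 * (C + 1)) := hδ.trans (min_le_right _ _)
  have hcI : c ∈ Icc α β := ⟨h1.trans hc.1, hc.2.trans h2⟩
  have hτI : τ ∈ Icc α β := ⟨h1.trans hτ.1, hτ.2.trans h2⟩
  have hdist : dist c τ ≤ s₂ - s₁ := by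
    rw [Real.dist_eq, abs_le]
    constructor <;> linarith [hc.1, hc.2, hτ.1, hτ.2]
  have hRcτ : |R c - R τ| < θ / 4 := by
    have := hRu c hcI τ hτI (by linarith)
    rwa [Real.dist_eq] at this
  have hψcτ : |ψ c - ψ τ| ≤ θ := by
    have := hψu c hcI τ hτI (by linarith)
    rw [Real.dist_eq] at this
    exact this.le
  have hRτ0 := hR0 τ hτI
  have hRτM := hM τ hτI
  have hRc0 := hR0 c hcI
  obtain ⟨hlo, hhi⟩ := abs_lt.mp hRcτ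
  have hCδ : C * (s₂ - s₁) ≤ θ / 2 := by
    have hC1 : 0 < 2 * (C + 1) := by linarith
    have h3 : (s₂ - s₁) * (2 * (C + 1)) ≤ θ := (le_div_iff₀ hC1).mp hδ3
    have h4 : 0 ≤ s₂ - s₁ := by linarith
    nlinarith
  have hCδ0 : 0 ≤ C * (s₂ - s₁) := mul_nonneg hC (by linarith)
  have hmax0 : 0 ≤ max (R c - θ / 4) 0 := le_max_right _ _
  have hmaxle : max (R c - θ / 4) 0 ≤ R τ := max_le (by linarith) hRτ0
  have hmaxge : R c - θ / 4 ≤ max (R c - θ / 4) 0 := le_max_left _ _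
  refine ⟨by linarith, hmaxle, ?_, ?_⟩
  · have key := density_diff_le κ M θ ε (R c + θ / 4 + C * (s₂ - s₁)) (R τ) (ψ c) (ψ τ)
      hκ hM0 hθpos.le hθ1 hθε hRτ0 hRτM (by linarith)
      (by rw [abs_le]; constructor <;> linarith) (hψ0 c) (hψhalf c) hψcτ
    have e1 : κ * (R c + θ / 4 + C * (s₂ - s₁)) ^ 2 / (2 * Real.sqrt (1 + ‖w c‖ ^ 2))
        = κ * (R c + θ / 4 + C * (s₂ - s₁)) ^ 2 * ψ c := by
      rw [hψdef]; simp only [div_eq_mul_inv]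
    have e2 : R τ ^ 2 / (2 * Real.sqrt (1 + ‖w τ‖ ^ 2)) = R τ ^ 2 * ψ τ := by
      rw [hψdef]; simp only [div_eq_mul_inv]
    rw [e1, e2]
    exact key
  · have key := density_diff_le κ M θ ε (max (R c - θ / 4) 0) (R τ) (ψ c) (ψ τ)
      hκ hM0 hθpos.le hθ1 hθε hRτ0 hRτM hmax0
      (by rw [abs_le]; constructor <;> linarith) (hψ0 c) (hψhalf c) hψcτ
    have e1 : κ * (max (R c - θ / 4) 0) ^ 2 / (2 * Real.sqrt (1 + ‖w c‖ ^ 2))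
        = κ * (max (R c - θ / 4) 0) ^ 2 * ψ c := by
      rw [hψdef]; simp only [div_eq_mul_inv]
    have e2 : R τ ^ 2 / (2 * Real.sqrt (1 + ‖w τ‖ ^ 2)) = R τ ^ 2 * ψ τ := by
      rw [hψdef]; simp only [div_eq_mul_inv]
    rw [e1, e2]
    exact key

end Crest.Agent.Helper56.Sweep
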